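import Vale.Agent.P269.G1I.H980.Amb

/-!
# [DC1] the polynomial part of `l_k` at ambient points
-/

namespace Vale.Agent.P269.G1.H980

open Finset.HasAntidiagonal (antidiagonal)
open Vale.Agent.P269.CI Vale.Agent.P269.G1
open Vale.Agent.P269.G1.H598 (toSer_add' coeff_toSer lst_zero count_lst shf_congr shf_perm)
open Vale.Agent.P269.H597 (coh Coh sh ev act tau pot coeff_pot genus0 sg lsg sh_cons sh_nil
  lsg_false ev_apply sg_false_left sg_false_right)
open Vale.Agent.P269.H597.Coh (cs zop Tan)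

section abs

variable {K : Type*} [CommRing K] {ι : Type*} [Fintype ι] [DecidableEq ι] {D : Coh K ι}

theorem cZ_zero (c : List (ι × ℕ) → (ι × ℕ →₀ K)) (Φ : ι × ℤ → List (ι × ℕ) → K)
    (L : List (ι × ℕ)) (b : ι) :
    D.cZ c Φ L (b, 0) = - ∑ a, D.etai a b * D.sn a * Φ (a, 0) L := by
  unfold Coh.cZ
  rw [Finsupp.sub_apply, Coh.zop_apply_zero, Finsupp.finsetSum_apply, zero_sub]
  congr 1
  refine Finset.sum_congr rfl fun x _ => ?_
  rw [Finsupp.finsetSum_apply]
  simp [Finsupp.single_apply]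

theorem cZ_succ (c : List (ι × ℕ) → (ι × ℕ →₀ K)) (Φ : ι × ℤ → List (ι × ℕ) → K)
    (L : List (ι × ℕ)) (b : ι) (m : ℕ) :
    D.cZ c Φ L (b, m + 1) = c L (b, m) := by
  unfold Coh.cZ
  rw [Finsupp.sub_apply, Coh.zop_apply_succ, Finsupp.finsetSum_apply]
  rw [Finset.sum_eq_zero, sub_zero]
  intro x _
  rw [Finsupp.finsetSum_apply]
  simp

end abs

variable {X : CompleteIntersection} {n : ℕ} (E : Fam X n) {F : ℕ → ℕ → List (Ins X) → ℂ}

theorem tau_bound (q : ℕ) (hq : ∀ i, (E.e i).2 ≤ q) (h1q : 1 ≤ q) (L : List (Fin n)) (a : Ix X)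
    (p : ℕ) (hp : q < p) :
    tau (K := PowerSeries ℂ) ((DX X).one, 1) (L.map E.ins) (a, p) = 0 := by
  match L with
  | [] =>
    change (- Finsupp.single _ _ : Ins X →₀ PowerSeries ℂ) (a, p) = 0
    rw [Finsupp.neg_apply, Finsupp.single_apply, if_neg, neg_zero]
    intro h
    have := (Prod.mk.inj h).2
    omega
  | [i] =>
    change (Finsupp.single (E.ins i) 1 : Ins X →₀ PowerSeries ℂ) (a, p) = 0
    rw [Finsupp.single_apply, if_neg]
    intro h
    have h2 : (E.e i).2 = p := congrArg Prod.snd h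
    have := hq i
    omega
  | _ :: _ :: _ => rfl

theorem cs_bound (q : ℕ) (hq : ∀ i, (E.e i).2 ≤ q) (h1q : 1 ≤ q) (k : ℕ) :
    ∀ (L : List (Fin n)) (a : Ix X) (p : ℕ), q + k < p →
      (cs (DX X) (pot F) k).1 (L.map E.ins) (a, p) = 0 := by
  have hL : ∀ (c : List (Ins X) → (Ins X →₀ PowerSeries ℂ)) (r : ℕ),
      (∀ (L : List (Fin n)) (a : Ix X) (p : ℕ), r < p → c (L.map E.ins) (a, p) = 0) →
      ∀ (L : List (Fin n)) (a : Ix X) (p : ℕ), r < p →
        (DX X).cL c (L.map E.ins) (a, p) = 0 := by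
    intro c r h L a p hp
    unfold Coh.cL
    rw [Coh.A0_apply, h L a p hp, mul_zero, zero_add]
    refine Finset.sum_eq_zero fun b _ => ?_
    rw [h L b (p + 1) (by omega), mul_zero]
  induction k with
  | zero => exact hL _ _ (tau_bound E q hq h1q)
  | succ k ih =>
    refine hL _ (q + (k + 1)) fun L a p hp => ?_
    obtain ⟨p, rfl⟩ : ∃ p', p = p' + 1 := ⟨p - 1, by omega⟩
    rw [cZ_succ]
    exact ih L a p (by omega)

theorem tau_perm {L M : List (Fin n)} (h : L.Perm M) :
    tau (K := PowerSeries ℂ) ((DX X).one, 1) (L.map E.ins) =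
      tau ((DX X).one, 1) (M.map E.ins) := by
  match L, M, h with
  | [], M, h =>
    rw [List.nil_perm.1 h]
  | [i], M, h =>
    rw [List.perm_singleton.1 h.symm]
  | i :: j :: L, M, h =>
    have h2 := h.length_eq
    match M, h2 with
    | [], h2 => simp at h2
    | [_], h2 => simp at h2
    | _ :: _ :: _, _ => rfl

theorem qc_perm (hF : IsGW X F) (k m : ℕ) (b : Ix X) {L M : List (Fin n)} (h : L.Perm M) :
    (DX X).qc (pot F) k m b (L.map E.ins) = (DX X).qc (pot F) k m b (M.map E.ins) := by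
  unfold Coh.qc
  refine Finset.sum_congr rfl fun i _ => Finset.sum_congr rfl fun a _ =>
    Finset.sum_congr rfl fun c _ => ?_
  congr 1
  exact symT_cor E hF 0 [(c, k - 1 - m - i)] L M h

theorem hkap : (coh X).kap = (3 - (X.dim : ℂ)) / 48 * (deg X * chernCoeff X X.dim) -
      (index X : ℂ) / 24 * (deg X * chernCoeff X (X.dim - 1)) := by
  rw [Vale.Agent.P269.H597.kap_eq, H861.euler, H861.libgober_wood]
  ring

theorem g0 (hF : IsGW X F) : (DX X).Genus0 (pot F) := genus0 hF hkap

theorem cs_perm (hF : IsGW X F) (k : ℕ) {L M : List (Fin n)} (h : L.Perm M) :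
    (cs (DX X) (pot F) k).1 (L.map E.ins) = (cs (DX X) (pot F) k).1 (M.map E.ins) := by
  have e1 := Coh.cs_decomp (g0 hF) k (L.map E.ins)
  have e2 := Coh.cs_decomp (g0 hF) k (M.map E.ins)
  have e3 : ∑ m ∈ Finset.range k, ∑ b, (DX X).qc (pot F) k m b (L.map E.ins) •
      (Finsupp.single (b, m) 1 : Ins X →₀ PowerSeries ℂ) =
      ∑ m ∈ Finset.range k, ∑ b, (DX X).qc (pot F) k m b (M.map E.ins) •
      (Finsupp.single (b, m) 1 : Ins X →₀ PowerSeries ℂ) :=
    Finset.sum_congr rfl fun m _ => Finset.sum_congr rfl fun b _ => by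
      rw [qc_perm E hF k m b h]
  refine e1.trans (Eq.trans ?_ e2.symm)
  rw [e3, tau_perm E h]

theorem symT_cs (hF : IsGW X F) (k : ℕ) (x : Ins X) :
    symT E fun M => (cs (DX X) (pot F) k).1 M x := fun L M h => by
  change (cs (DX X) (pot F) k).1 (L.map E.ins) x = (cs (DX X) (pot F) k).1 (M.map E.ins) x
  rw [cs_perm E hF k h]

theorem toSer_one' {K : Type*} [CommRing K] [Algebra ℚ K] :
    toSer (fun L : List (Fin n) => if L = [] then (1 : K) else 0) = 1 := by
  classical
  ext α
  rw [coeff_toSer, MvPowerSeries.coeff_one]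
  by_cases h : α = 0
  · rw [if_pos h, h, lst_zero]
    simp
  · rw [if_neg h]
    have h2 : lst α ≠ [] := by
      intro h3
      apply h
      ext j
      rw [← count_lst α j, h3]
      simp
    rw [if_neg h2, smul_zero]

theorem tau_apply (L : List (Fin n)) (b : Fin (X.dim + 1)) (p : ℕ) :
    tau (K := PowerSeries ℂ) ((DX X).one, 1) (L.map E.ins) (Sum.inl b, p) =
      (∑ i, if E.e i = (b, p) then dlt (K := PowerSeries ℂ) i L else 0) +
        - (if p = 1 ∧ b = 0 then (if L = [] then 1 else 0) else 0) := by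
  match L with
  | [] =>
    change (- Finsupp.single ((DX X).one, 1) 1 : Ins X →₀ PowerSeries ℂ) (Sum.inl b, p) = _
    rw [Finsupp.neg_apply, Finsupp.single_apply]
    have h1 : ∀ i : Fin n, (if E.e i = (b, p) then dlt (K := PowerSeries ℂ) i [] else 0) = 0 := by
      intro i
      simp [dlt]
    simp only [h1, Finset.sum_const_zero, zero_add]
    congr 1
    have h2 : (((DX X).one, 1) : Ins X) = (Sum.inl b, p) ↔ (p = 1 ∧ b = 0) := by
      change ((Sum.inl 0, 1) : Ins X) = (Sum.inl b, p) ↔ _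
      rw [Prod.mk.injEq, Sum.inl.injEq]
      constructor
      · rintro ⟨h, h'⟩
        exact ⟨h'.symm, h.symm⟩
      · rintro ⟨h, h'⟩
        exact ⟨h'.symm, h.symm⟩
    simp only [h2, if_true]
  | [j] =>
    change (Finsupp.single (E.ins j) 1 : Ins X →₀ PowerSeries ℂ) (Sum.inl b, p) = _
    rw [Finsupp.single_apply]
    have h1 : ∀ i : Fin n, (if E.e i = (b, p) then dlt (K := PowerSeries ℂ) i [j] else 0) =
        if i = j then (if E.e j = (b, p) then 1 else 0) else 0 := by
      intro i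
      by_cases hij : i = j
      · subst hij
        simp [dlt]
      · have : ¬ ([j] = [i]) := by
          intro h
          exact hij (List.cons.inj h).1.symm
        simp [dlt, this, hij]
    simp only [h1, Finset.sum_ite_eq', Finset.mem_univ, if_true]
    have h2 : E.ins j = (Sum.inl b, p) ↔ E.e j = (b, p) := by
      unfold Fam.ins
      rw [Prod.mk.injEq, Sum.inl.injEq]
      constructor
      · rintro ⟨h, h'⟩
        exact Prod.ext h h'
      · intro h
        rw [h]
        exact ⟨rfl, rfl⟩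
    simp only [h2]
    simp
  | i :: j :: L =>
    change (0 : Ins X →₀ PowerSeries ℂ) (Sum.inl b, p) = _
    simp [dlt]

theorem tS_tau (b : Fin (X.dim + 1)) (p : ℕ) :
    tS E (fun M => tau (K := PowerSeries ℂ) ((DX X).one, 1) M (Sum.inl b, p)) =
      tauB E p b := by
  have h1 : tS E (fun M => tau (K := PowerSeries ℂ) ((DX X).one, 1) M (Sum.inl b, p)) =
      toSer (fun L : List (Fin n) =>
        (∑ i, if E.e i = (b, p) then dlt (K := PowerSeries ℂ) i L else 0) +
        - (if p = 1 ∧ b = 0 then (if L = [] then 1 else 0) else 0)) := by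
    unfold tS
    congr 1
    funext L
    exact tau_apply E L b p
  rw [h1, toSer_add', toSer_sum, tauB, sub_eq_add_neg]
  congr 1
  · refine Finset.sum_congr rfl fun i _ => ?_
    by_cases h : E.e i = (b, p)
    · simp only [h, if_true]
      exact toSer_dlt i
    · simp only [h, if_false]
      exact toSer_zero'
  · by_cases h : p = 1 ∧ b = 0
    · simp only [h, and_self, if_true]
      have h2 : (fun L : List (Fin n) => - (if L = [] then (1 : PowerSeries ℂ) else 0)) =
          fun L => (fun _ : List (Fin n) => (0 : PowerSeries ℂ)) L - (if L = [] then 1 else 0) := by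
        funext L
        simp
      have h3 := toSer_add' (fun L : List (Fin n) => - (if L = [] then (1 : PowerSeries ℂ) else 0))
        (fun L => if L = [] then (1 : PowerSeries ℂ) else 0)
      simp only [neg_add_cancel] at h3
      rw [toSer_zero', toSer_one'] at h3
      exact (neg_eq_of_add_eq_zero_left h3.symm).symm
    · simp only [h, if_false, neg_zero]
      exact toSer_zero'

theorem actB_apply (a : OB X n) (x : Fin (X.dim + 1) → RB n) (b : Fin (X.dim + 1)) :
    actB X n a x b = ∑ c, a.1 b c * x c := rfl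

theorem R_inr (v : X.Prim) (b : Fin (X.dim + 1)) : (DX X).R (Sum.inr v) (Sum.inl b) = 0 := by
  change PowerSeries.C (c1 X (Sum.inr v) (Sum.inl b)) = 0
  simp [c1, hmul]

theorem cL_tS (c : List (Ins X) → (Ins X →₀ PowerSeries ℂ)) (c' : ℕ → Fin (X.dim + 1) → RB n)
    (h : ∀ b p, tS E (fun M => c M (Sum.inl b, p)) = c' p b) (b : Fin (X.dim + 1)) (p : ℕ) :
    tS E (fun M => (DX X).cL c M (Sum.inl b, p)) = cLB c' p b := by
  have h1 : ∀ M, (DX X).cL c M (Sum.inl b, p) =
      PowerSeries.C ((p : ℂ) + 1 / 2 + mu X (Sum.inl b)) * c M (Sum.inl b, p) +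
      ∑ a : Fin (X.dim + 1), PowerSeries.C (c1 X (Sum.inl a) (Sum.inl b)) *
        c M (Sum.inl a, p + 1) := by
    intro M
    unfold Coh.cL
    rw [Coh.A0_apply, Fintype.sum_sum_type]
    have h2 : ∑ v : X.Prim, (DX X).R (Sum.inr v) (Sum.inl b) * c M (Sum.inr v, p + 1) = 0 :=
      Finset.sum_eq_zero fun v _ => by rw [R_inr, zero_mul]
    rw [h2, add_zero]
    congr 1
    have h3 : ((p : PowerSeries ℂ) + (DX X).half + (DX X).mu (Sum.inl b)) =
        PowerSeries.C ((p : ℂ) + 1 / 2 + mu X (Sum.inl b)) := by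
      rw [map_add, map_add, map_natCast]
      rfl
    rw [h3]
  have h4 : tS E (fun M => (DX X).cL c M (Sum.inl b, p)) =
      tS E (fun M => PowerSeries.C ((p : ℂ) + 1 / 2 + mu X (Sum.inl b)) * c M (Sum.inl b, p) +
      ∑ a : Fin (X.dim + 1), PowerSeries.C (c1 X (Sum.inl a) (Sum.inl b)) *
        c M (Sum.inl a, p + 1)) := tS_congr E fun L => h1 _
  rw [h4, tS_add, tS_sum, tS_smul]
  simp only [tS_smul, h]
  rw [cLB, Pi.add_apply, actB_apply, actB_apply]
  congr 1
  · rw [Finset.sum_eq_single b]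
    · rw [cb_smul]
      change _ = Matrix.diagonal _ b b * _
      rw [Matrix.diagonal_apply_eq]
    · intro a _ ha
      change Matrix.diagonal _ b a * _ = 0
      rw [Matrix.diagonal_apply_ne _ (Ne.symm ha), zero_mul]
    · simp
  · refine Finset.sum_congr rfl fun a _ => ?_
    rw [cb_smul]
    rfl

theorem cZ_tS (hF : IsGW X F) (h1 : IsGenusOne F) (N : ℕ)
    (c : List (Ins X) → (Ins X →₀ PowerSeries ℂ)) (Φ : Ix X × ℤ → List (Ins X) → PowerSeries ℂ)
    (hT : (DX X).Tan (pot F) c Φ)
    (hc : ∀ (M : List (Fin n)) (b : Fin (X.dim + 1)) (p : ℕ), N ≤ p →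
      c (M.map E.ins) (Sum.inl b, p) = 0)
    (hcs : ∀ (b : Fin (X.dim + 1)) (p : ℕ), symT E fun M => c M (Sum.inl b, p))
    (c' : ℕ → Fin (X.dim + 1) → RB n)
    (h : ∀ b p, tS E (fun M => c M (Sum.inl b, p)) = c' p b) (b : Fin (X.dim + 1)) (p : ℕ) :
    tS E (fun M => (DX X).cZ c Φ M (Sum.inl b, p)) = cZB E h1 N c' p b := by
  cases p with
  | succ p =>
    have h2 : tS E (fun M => (DX X).cZ c Φ M (Sum.inl b, p + 1)) =
        tS E (fun M => c M (Sum.inl b, p)) := tS_congr E fun L => cZ_succ _ _ _ _ _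
    rw [h2, h]
    rfl
  | zero =>
    have h2 : ∀ M, (DX X).cZ c Φ M (Sum.inl b, 0) = - ∑ a : Fin (X.dim + 1),
        PowerSeries.C (pairingInv X (Sum.inl a) (Sum.inl b)) *
          act (DX X).ip c (fun M => pot F ((Sum.inl a, 0) :: M)) M := by
      intro M
      rw [cZ_zero, Fintype.sum_sum_type]
      have h3 : ∑ v : X.Prim, (DX X).etai (Sum.inr v) (Sum.inl b) * (DX X).sn (Sum.inr v) *
          Φ (Sum.inr v, 0) M = 0 := by
        refine Finset.sum_eq_zero fun v _ => ?_
        have : (DX X).etai (Sum.inr v) (Sum.inl b) = 0 := by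
          change PowerSeries.C (pairingInv X (Sum.inr v) (Sum.inl b)) = 0
          have h4 : pairingInv X (Sum.inr v) (Sum.inl b) = 0 := rfl
          rw [h4, map_zero]
        rw [this]
        ring
      rw [h3, add_zero]
      congr 1
      refine Finset.sum_congr rfl fun a _ => ?_
      have h4 := hT (Sum.inl a) 0 M
      rw [Nat.cast_zero] at h4
      rw [h4]
      have h5 : (DX X).sn (Sum.inl a) = 1 := rfl
      rw [h5, mul_one]
      rfl
    have h3 : tS E (fun M => (DX X).cZ c Φ M (Sum.inl b, 0)) =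
        tS E (fun M => - ∑ a : Fin (X.dim + 1),
        PowerSeries.C (pairingInv X (Sum.inl a) (Sum.inl b)) *
          act (DX X).ip c (fun M => pot F ((Sum.inl a, 0) :: M)) M) := tS_congr E fun L => h2 _
    rw [h3, tS_neg, tS_sum]
    simp only [tS_smul]
    have h4 : ∀ a : Fin (X.dim + 1), tS E (fun M => act (DX X).ip c
        (fun M => pot F ((Sum.inl a, 0) :: M)) M) = ∑ m ∈ Finset.range N,
        ∑ e : Fin (X.dim + 1), c' m e * VB E F (Sum.inl e, m) (Sum.inl a, 0) := by
      intro a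
      have h5 := tS_act E N c (fun M => pot F ((Sum.inl a, 0) :: M)) hc (fun M v p => by
        ext d
        rw [coeff_pot, map_zero]
        have h6 := hF.symm 0 d [] (M.map E.ins) (Sum.inl a, 0) (Sum.inr v, p)
        simp only [List.nil_append] at h6
        rw [h6, h1.mono1 0 d v p ((Sum.inl a, 0) :: M.map E.ins), mul_zero]
        intro x hx
        rcases List.mem_cons.1 hx with h7 | h7
        · exact ⟨a, by rw [h7]⟩
        · obtain ⟨i, _, rfl⟩ := List.mem_map.1 h7
          exact ⟨_, rfl⟩) hcs (fun e p => symT_cor E hF 0 [(Sum.inl a, 0), (Sum.inl e, p)])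
      refine h5.trans ?_
      refine Finset.sum_congr rfl fun m _ => Finset.sum_congr rfl fun e _ => ?_
      rw [h]
      congr 1
      rw [VB, sr_eq]
      refine tS_congr E fun L => ?_
      ext d
      rw [coeff_pot, PowerSeries.coeff_mk]
      have h6 := hF.symm 0 d [] (L.map E.ins) (Sum.inl a, 0) (Sum.inl e, m)
      simp only [List.nil_append] at h6
      rw [h6]
      have h7 : sgn (par X ((Sum.inl a, 0) : Ins X).1) (par X ((Sum.inl e, m) : Ins X).1) = 1 :=
        rfl
      rw [h7, one_mul]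
      rfl
    simp only [h4]
    rw [cZB, Pi.neg_apply, Finset.sum_apply]
    congr 1
    simp only [actB_apply]
    have h5 : ∀ (m : ℕ) (e : Fin (X.dim + 1)), (SB E h1 (m + 1)).1 b e = ∑ a : Fin (X.dim + 1),
        pairingInv X (Sum.inl a) (Sum.inl b) • VB E F (Sum.inl e, m) (Sum.inl a, 0) :=
      fun m e => rfl
    simp only [h5, Finset.sum_mul, Finset.smul_sum]
    rw [Finset.sum_comm]
    refine Finset.sum_congr rfl fun m _ => ?_
    rw [Finset.sum_comm]
    refine Finset.sum_congr rfl fun e _ => Finset.sum_congr rfl fun a _ => ?_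
    rw [smul_mul_assoc, mul_comm]

/-- `cB` is `cs` restricted to the family -/
theorem cs_tS (hF : IsGW X F) (h1 : IsGenusOne F) (N : ℕ) (k : ℕ)
    (hN : ∀ i, (E.e i).2 + k ≤ N) (hN2 : k + 1 ≤ N) :
    ∀ (b : Fin (X.dim + 1)) (p : ℕ),
      tS E (fun M => (cs (DX X) (pot F) k).1 M (Sum.inl b, p)) = cB E h1 N k p b := by
  induction k with
  | zero => exact cL_tS E _ _ (tS_tau E)
  | succ k ih =>
    have ih' := ih (fun i => by have := hN i; omega) (by omega)
    refine cL_tS E _ _ ?_
    refine cZ_tS E hF h1 N _ _ (Coh.cs_good (g0 hF) k).1 ?_ (fun b p => symT_cs E hF k _) _ ih'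
    intro M b p hp
    refine cs_bound E (N - k - 1) ?_ ?_ k M (Sum.inl b) p ?_
    · intro i
      have := hN i
      omega
    · omega
    · omega

end Vale.Agent.P269.G1.H980
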