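import Vale.Agent.P269.G1I.H980.Cs
import Vale.Agent.P269.G1I.H440.QcoSymm

/-!
# [DC1] the genus-one Virasoro coefficients at ambient points of the big phase space
-/

namespace Vale.Agent.P269.G1.H980

open Finset.HasAntidiagonal (antidiagonal)
open Vale.Agent.P269.CI Vale.Agent.P269.G1
open Vale.Agent.P269.G1.H598 (toSer_add' coeff_toSer lst_zero count_lst shf_congr shf_perm)
open Vale.Agent.P269.H597 (coh Coh sh ev act tau pot coeff_pot genus0 sg lsg sh_cons sh_nil
  lsg_false ev_apply sg_false_left sg_false_right)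
open Vale.Agent.P269.H597.Coh (cs zop Tan)

variable {X : CompleteIntersection} {n : ℕ} (E : Fam X n) {F : ℕ → ℕ → List (Ins X) → ℂ}

/-- the genus-one potential with its Novikov variable -/
noncomputable def pot1 (F : ℕ → ℕ → List (Ins X) → ℂ) (L : List (Ins X)) : PowerSeries ℂ :=
  PowerSeries.mk fun d => F 1 d L

theorem coeff_pot1 (d : ℕ) (L : List (Ins X)) : PowerSeries.coeff d (pot1 F L) = F 1 d L := by
  simp [pot1]

theorem symF_pot1 (hF : IsGW X F) : H597.SymF (K := PowerSeries ℂ) (DX X).ip (pot1 F) := by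
  intro L M i j
  ext d
  rw [coeff_pot1, (H597.stringG hF).symm 1 d L M i j, smul_eq_mul, smul_eq_mul,
    ← H597.map_sg (PowerSeries.C : ℂ →+* PowerSeries ℂ), PowerSeries.coeff_C_mul, coeff_pot1]
  rfl

/-- the genus-one coefficient as a function with values in the Novikov ring -/
theorem vir_mk (k : ℕ) (M : List (Ins X)) :
    (PowerSeries.mk fun d => virasoro X F (k + 1) 1 d M) = (DX X).lin k (pot1 F) M +
      PowerSeries.C (1 / 2) * ((DX X).quad2 k (pot F) (pot1 F) M +
        (DX X).quad2 k (pot1 F) (pot F) M +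
        PowerSeries.mk fun d => (coh X).loop (F 0 d) k M) +
      (if k = 0 then PowerSeries.C (coh X).kap * H597.cst 1 M else 0) := by
  ext d
  rw [PowerSeries.coeff_mk, H597.virasoro_succ, map_add, map_add, PowerSeries.coeff_C_mul, map_add,
    map_add, Coh.coeff_lin, Coh.coeff_quad2, Coh.coeff_quad2, PowerSeries.coeff_mk]
  unfold Coh.vir
  simp only [coeff_pot, coeff_pot1]
  rw [show antidiagonal 1 = {((0 : ℕ), (1 : ℕ)), (1, 0)} from rfl,
    Finset.sum_pair (by decide), if_neg (by omega), if_neg (by omega), add_zero]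
  congr 1
  by_cases hk : k = 0
  · by_cases hd : d = 0
    · rw [if_pos ⟨hk, trivial, hd⟩, if_pos hk, hd, PowerSeries.coeff_C_mul]
      cases M <;> simp
    · rw [if_neg (by tauto), if_pos hk, PowerSeries.coeff_C_mul]
      cases M with
      | nil => simp [PowerSeries.coeff_one, hd]
      | cons a M => simp
  · rw [if_neg (by tauto), if_neg hk, map_zero]

/-- the one-point functions -/
noncomputable def Ac (F : ℕ → ℕ → List (Ins X) → ℂ) (g : ℕ) (b : Ix X) (m : ℕ) : RB n :=
  sr E (cor F g [(b, m)])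

theorem Ac_zero (b : Ix X) (m : ℕ) : Ac E F 0 b m = tS E fun M => pot F ((b, m) :: M) := rfl

theorem Ac_one (b : Ix X) (m : ℕ) : Ac E F 1 b m = tS E fun M => pot1 F ((b, m) :: M) := rfl

theorem Ac_inr (h1 : IsGenusOne F) (g : ℕ) (v : X.Prim) (m : ℕ) :
    Ac E F g (Sum.inr v) m = 0 := by
  rw [← tS_zero E, Ac, sr_eq]
  refine tS_congr E fun L => ?_
  ext d
  rw [PowerSeries.coeff_mk, map_zero]
  refine h1.mono1 g d v m (L.map E.ins) fun x hx => ?_
  obtain ⟨i, _, rfl⟩ := List.mem_map.1 hx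
  exact ⟨_, rfl⟩

theorem symT_pot (hF : IsGW X F) (x : Ins X) : symT E fun M => pot F (x :: M) :=
  symT_cor E hF 0 [x]

theorem symT_pot1 (hF : IsGW X F) (x : Ins X) : symT E fun M => pot1 F (x :: M) :=
  symT_cor E hF 1 [x]

theorem cf_eq (k m i : ℕ) (a b c : Ix X) :
    (DX X).cf k m i a b c = PowerSeries.C (qco X (k + 1) m i a b c) := by
  rw [Coh.map_cf]
  congr 1
  unfold Coh.cf
  have h1 : (coh X).mu a - (m : ℂ) - 1 + (coh X).half = mu X a - m - 1 / 2 := by
    have e1 : (coh X).mu a = mu X a := rfl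
    have e2 : (coh X).half = 1 / 2 := rfl
    rw [e1, e2]; ring
  rw [h1]
  rfl

theorem tS_shmul (G G' : List (Ins X) → PowerSeries ℂ) (h : symT E G) (h' : symT E G') :
    tS E (fun M => sh (DX X).ip (LinearMap.mul (PowerSeries ℂ) (PowerSeries ℂ)) M G G') =
      tS E G * tS E G' := by
  rw [← tS_mul E G G' h h']
  unfold tS
  congr 1
  funext L
  exact sh_mul_amb E L G G'

theorem tS_quad2 (k : ℕ) (G G' : List (Ins X) → PowerSeries ℂ)
    (h : ∀ x, symT E fun M => G (x :: M)) (h' : ∀ x, symT E fun M => G' (x :: M)) :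
    tS E ((DX X).quad2 k G G') = ∑ m ∈ Finset.range k, ∑ i ∈ Finset.range (k - m),
      ∑ a, ∑ b, ∑ c, qco X (k + 1) m i a b c • (tS E (fun M => G ((b, m) :: M)) *
        tS E (fun M => G' ((c, k - 1 - m - i) :: M))) := by
  have h1 : (DX X).quad2 k G G' = fun L => ∑ m ∈ Finset.range k, ∑ i ∈ Finset.range (k - m),
      ∑ a, ∑ b, ∑ c, PowerSeries.C (qco X (k + 1) m i a b c) *
        sh (DX X).ip (LinearMap.mul (PowerSeries ℂ) (PowerSeries ℂ)) L (fun M => G ((b, m) :: M))
          (fun M => G' ((c, k - 1 - m - i) :: M)) := by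
    funext L
    unfold Coh.quad2
    simp only [cf_eq]
  rw [h1]
  simp only [tS_sum, tS_smul]
  refine Finset.sum_congr rfl fun m _ => Finset.sum_congr rfl fun i _ =>
    Finset.sum_congr rfl fun a _ => Finset.sum_congr rfl fun b _ =>
    Finset.sum_congr rfl fun c _ => ?_
  rw [tS_shmul E _ _ (h _) (h' _)]

/-- restriction of the sums to the ambient classes -/
theorem quad_amb {R : Type*} [CommRing R] [Algebra ℂ R] (K m i : ℕ) (f : Ix X → Ix X → R)
    (h1 : ∀ v c, f (Sum.inr v) c = 0) (h2 : ∀ b v, f b (Sum.inr v) = 0) :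
    ∑ a, ∑ b, ∑ c, qco X K m i a b c • f b c =
      ∑ b : Fin (X.dim + 1), ∑ c : Fin (X.dim + 1),
        (∑ a : Fin (X.dim + 1), qco X K m i (Sum.inl a) (Sum.inl b) (Sum.inl c)) •
          f (Sum.inl b) (Sum.inl c) := by
  have e1 : ∀ a : Ix X, ∑ b, ∑ c, qco X K m i a b c • f b c =
      ∑ b : Fin (X.dim + 1), ∑ c : Fin (X.dim + 1), qco X K m i a (Sum.inl b) (Sum.inl c) •
        f (Sum.inl b) (Sum.inl c) := by
    intro a
    rw [sum_Ix]
    · refine Finset.sum_congr rfl fun b _ => ?_
      rw [sum_Ix]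
      intro v
      rw [h2, smul_zero]
    · intro v
      refine Finset.sum_eq_zero fun c _ => ?_
      rw [h1, smul_zero]
  simp only [e1]
  rw [sum_Ix]
  · rw [Finset.sum_comm]
    refine Finset.sum_congr rfl fun b _ => ?_
    rw [Finset.sum_comm]
    refine Finset.sum_congr rfl fun c _ => ?_
    rw [Finset.sum_smul]
  · intro v
    refine Finset.sum_eq_zero fun b _ => Finset.sum_eq_zero fun c _ => ?_
    rw [qco_inr, zero_smul]

/-- the products, in the order in which they come from the vector field -/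
noncomputable def Qp (F : ℕ → ℕ → List (Ins X) → ℂ) (k : ℕ) : RB n :=
  ∑ m ∈ Finset.range k, ∑ i ∈ Finset.range (k - m),
    ∑ b : Fin (X.dim + 1), ∑ c : Fin (X.dim + 1),
      (∑ a : Fin (X.dim + 1), qco X (k + 1) m i (Sum.inl a) (Sum.inl b) (Sum.inl c)) •
        (Ac E F 1 (Sum.inl b) m * Ac E F 0 (Sum.inl c) (k - 1 - m - i))

theorem quad_one (hF : IsGW X F) (h1 : IsGenusOne F) (k : ℕ) :
    tS E ((DX X).quad2 k (pot1 F) (pot F)) = Qp E F k := by
  rw [tS_quad2 E k _ _ (symT_pot1 E hF) (symT_pot E hF)]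
  unfold Qp
  refine Finset.sum_congr rfl fun m _ => Finset.sum_congr rfl fun i _ => ?_
  exact quad_amb (k + 1) m i (fun b c => Ac E F 1 b m * Ac E F 0 c (k - 1 - m - i))
    (fun v c => by rw [Ac_inr E h1, zero_mul]) (fun b v => by rw [Ac_inr E h1, mul_zero])

theorem quad_zero (hF : IsGW X F) (h1 : IsGenusOne F) (k : ℕ) :
    tS E ((DX X).quad2 k (pot F) (pot1 F)) = Qp E F k := by
  rw [tS_quad2 E k _ _ (symT_pot E hF) (symT_pot1 E hF)]
  have e1 : ∀ m i, ∑ a, ∑ b, ∑ c, qco X (k + 1) m i a b c •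
      (tS E (fun M => pot F ((b, m) :: M)) * tS E (fun M => pot1 F ((c, k - 1 - m - i) :: M))) =
      ∑ b : Fin (X.dim + 1), ∑ c : Fin (X.dim + 1),
      (∑ a : Fin (X.dim + 1), qco X (k + 1) m i (Sum.inl a) (Sum.inl b) (Sum.inl c)) •
        (Ac E F 0 (Sum.inl b) m * Ac E F 1 (Sum.inl c) (k - 1 - m - i)) := fun m i =>
    quad_amb (k + 1) m i (fun b c => Ac E F 0 b m * Ac E F 1 c (k - 1 - m - i))
      (fun v c => by rw [Ac_inr E h1, zero_mul]) (fun b v => by rw [Ac_inr E h1, mul_zero])
  simp only [e1]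
  have e2 := sum_reflect (k + 1) (fun m i => ∑ b : Fin (X.dim + 1), ∑ c : Fin (X.dim + 1),
      (∑ a : Fin (X.dim + 1), qco X (k + 1) m i (Sum.inl a) (Sum.inl b) (Sum.inl c)) •
        (Ac E F 0 (Sum.inl b) m * Ac E F 1 (Sum.inl c) (k - 1 - m - i)))
  refine e2.trans ?_
  unfold Qp
  refine Finset.sum_congr rfl fun m hm => Finset.sum_congr rfl fun i hi => ?_
  rw [Finset.mem_range] at hm hi
  rw [Finset.sum_comm]
  refine Finset.sum_congr rfl fun b _ => Finset.sum_congr rfl fun c _ => ?_
  have h : m + i + 2 ≤ k + 1 := by omega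
  have e : k - 1 - (k + 1 - 2 - m - i) - i = m := by omega
  have e' : k + 1 - 2 - m - i = k - 1 - m - i := rfl
  rw [H440.qco_symm (k + 1) m i h b c, e, e', mul_comm]

/-- the vector field of the momenta acting on the genus-one potential -/
theorem act_mom (hF : IsGW X F) (h1 : IsGenusOne F) (k : ℕ) :
    tS E (act (DX X).ip (fun M => ∑ m ∈ Finset.range k, ∑ b, (DX X).qc (pot F) k m b M •
      (Finsupp.single (b, m) 1 : Ins X →₀ PowerSeries ℂ)) (pot1 F)) = Qp E F k := by
  have h2 : act (DX X).ip (fun M => ∑ m ∈ Finset.range k, ∑ b, (DX X).qc (pot F) k m b M •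
      (Finsupp.single (b, m) 1 : Ins X →₀ PowerSeries ℂ)) (pot1 F) =
      fun L => ∑ m ∈ Finset.range k, ∑ b, sh (DX X).ip
        (LinearMap.mul (PowerSeries ℂ) (PowerSeries ℂ)) L ((DX X).qc (pot F) k m b)
          (fun M => pot1 F ((b, m) :: M)) := by
    funext L
    rw [H597.act_csum]
    refine Finset.sum_congr rfl fun m _ => ?_
    rw [H597.act_csum]
    refine Finset.sum_congr rfl fun b _ => ?_
    have h3 : (fun M => (DX X).qc (pot F) k m b M •
        (Finsupp.single (b, m) 1 : Ins X →₀ PowerSeries ℂ)) =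
        fun M => Finsupp.single (b, m) ((DX X).qc (pot F) k m b M) := by
      funext M; simp
    rw [h3, H597.act_single]
    unfold H597.mulK
    rw [H597.lsmul_eq_mul]
  rw [h2]
  simp only [tS_sum]
  unfold Qp
  refine Finset.sum_congr rfl fun m _ => ?_
  have hq : ∀ b, symT E ((DX X).qc (pot F) k m b) := fun b L M h => qc_perm E hF k m b h
  have h3 : ∀ b, tS E (fun L => sh (DX X).ip
        (LinearMap.mul (PowerSeries ℂ) (PowerSeries ℂ)) L ((DX X).qc (pot F) k m b)
          (fun M => pot1 F ((b, m) :: M))) = tS E ((DX X).qc (pot F) k m b) * Ac E F 1 b m :=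
    fun b => tS_shmul E _ _ (hq b) (symT_pot1 E hF _)
  simp only [h3]
  rw [sum_Ix _ fun v => by rw [Ac_inr E h1, mul_zero]]
  rw [Finset.sum_comm]
  refine Finset.sum_congr rfl fun b _ => ?_
  have h4 : tS E ((DX X).qc (pot F) k m (Sum.inl b)) = ∑ i ∈ Finset.range (k - m),
      ∑ c : Fin (X.dim + 1),
        (∑ a : Fin (X.dim + 1), qco X (k + 1) m i (Sum.inl a) (Sum.inl b) (Sum.inl c)) •
          Ac E F 0 (Sum.inl c) (k - 1 - m - i) := by
    have h5 : (DX X).qc (pot F) k m (Sum.inl b) = fun L => ∑ i ∈ Finset.range (k - m),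
        ∑ a : Fin (X.dim + 1), ∑ c : Ix X,
          PowerSeries.C (qco X (k + 1) m i (Sum.inl a) (Sum.inl b) c) *
            pot F ((c, k - 1 - m - i) :: L) := by
      funext L
      unfold Coh.qc
      refine Finset.sum_congr rfl fun i _ => ?_
      rw [sum_Ix]
      · refine Finset.sum_congr rfl fun a _ => Finset.sum_congr rfl fun c _ => ?_
        rw [← cf_eq]
        congr 1
        unfold Coh.cf
        have h6 : (DX X).sn (Sum.inl a) = 1 := rfl
        rw [h6, mul_one]
      · intro v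
        refine Finset.sum_eq_zero fun c _ => ?_
        have : (DX X).etai (Sum.inr v) (Sum.inl b) = 0 := by
          change PowerSeries.C (pairingInv X (Sum.inr v) (Sum.inl b)) = 0
          have h4 : pairingInv X (Sum.inr v) (Sum.inl b) = 0 := rfl
          rw [h4, map_zero]
        rw [this]
        ring
    rw [h5]
    simp only [tS_sum, tS_smul]
    refine Finset.sum_congr rfl fun i _ => ?_
    have h6 : ∀ a : Fin (X.dim + 1), ∑ c : Ix X,
        qco X (k + 1) m i (Sum.inl a) (Sum.inl b) c •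
          tS E (fun M => pot F ((c, k - 1 - m - i) :: M)) =
        ∑ c : Fin (X.dim + 1), qco X (k + 1) m i (Sum.inl a) (Sum.inl b) (Sum.inl c) •
          Ac E F 0 (Sum.inl c) (k - 1 - m - i) := by
      intro a
      rw [sum_Ix]
      · rfl
      · intro v
        rw [← Ac_zero, Ac_inr E h1, smul_zero]
    simp only [h6]
    rw [Finset.sum_comm]
    refine Finset.sum_congr rfl fun c _ => ?_
    rw [Finset.sum_smul]
  rw [h4, Finset.sum_mul]
  refine Finset.sum_congr rfl fun i _ => ?_
  rw [Finset.sum_mul]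
  refine Finset.sum_congr rfl fun c _ => ?_
  rw [smul_mul_assoc, mul_comm (Ac E F 0 _ _)]

theorem tS_cst : tS E (H597.cst (1 : PowerSeries ℂ)) = 1 := by
  rw [← toSer_one' (n := n) (K := PowerSeries ℂ), tS]
  congr 1
  funext L
  cases L <;> simp

/-- **[DC1]** `cB` is `cs` of `H597.State` restricted to the family; `N` large -/
theorem vir_act (hF : IsGW X F) (h1 : IsGenusOne F) (k N : ℕ)
    (hN : ∀ i, (E.e i).2 + k + 2 ≤ N) (hN2 : k + 3 ≤ N) :
    sr E (fun d L => virasoro X F (k + 1) 1 d L) =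
      (∑ p ∈ Finset.range N, ∑ b, cB E h1 N k p b * sr E (cor F 1 [(Sum.inl b, p)])) +
      cb n (1 / 2) * loopB E F k + (if k = 0 then cb n (coh X).kap else 0) := by
  -- the vector field
  have hA : tS E (act (DX X).ip (cs (DX X) (pot F) k).1 (pot1 F)) =
      ∑ p ∈ Finset.range N, ∑ b, cB E h1 N k p b * sr E (cor F 1 [(Sum.inl b, p)]) := by
    rw [tS_act E N]
    · refine Finset.sum_congr rfl fun p _ => Finset.sum_congr rfl fun b _ => ?_
      rw [cs_tS E hF h1 N k (fun i => by have := hN i; omega) (by omega)]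
      rfl
    · intro M b p hp
      refine cs_bound E (N - k - 2) ?_ ?_ k M (Sum.inl b) p ?_
      · intro i
        have := hN i
        omega
      · omega
      · omega
    · intro M v p
      ext d
      rw [coeff_pot1, map_zero]
      refine h1.mono1 1 d v p (M.map E.ins) fun x hx => ?_
      obtain ⟨i, _, rfl⟩ := List.mem_map.1 hx
      exact ⟨_, rfl⟩
    · intro b p
      exact symT_cs E hF k _
    · intro b p
      exact symT_pot1 E hF _
  have hB : tS E (act (DX X).ip (cs (DX X) (pot F) k).1 (pot1 F)) =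
      tS E ((DX X).lin k (pot1 F)) + Qp E F k := by
    rw [← act_mom E hF h1 k, ← tS_add]
    refine tS_congr E fun L => ?_
    have h3 : (cs (DX X) (pot F) k).1 = fun M => (DX X).Aop k (tau ((DX X).one, 1) M) +
      ∑ m ∈ Finset.range k, ∑ b, (DX X).qc (pot F) k m b M • Finsupp.single (b, m) 1 := by
      funext M
      exact Coh.cs_decomp (g0 hF) k M
    rw [h3, H597.act_cadd]
    congr 1
    exact H597.act_tau (DX X).ip ((DX X).one, 1) Coh.ip_one (Coh.evenOp_Aop (D := DX X) k)
      (pot1 F) (symF_pot1 hF) _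
  have hC : sr E (fun d L => virasoro X F (k + 1) 1 d L) = tS E ((DX X).lin k (pot1 F)) +
      (1 / 2 : ℂ) • (Qp E F k + Qp E F k + loopB E F k) +
      (if k = 0 then cb n (coh X).kap else 0) := by
    have h2 : (fun L : List (Ins X) => PowerSeries.mk fun d => virasoro X F (k + 1) 1 d L) =
      fun M => (DX X).lin k (pot1 F) M +
      PowerSeries.C (1 / 2) * ((DX X).quad2 k (pot F) (pot1 F) M +
        (DX X).quad2 k (pot1 F) (pot F) M +
        PowerSeries.mk fun d => (coh X).loop (F 0 d) k M) +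
      (if k = 0 then PowerSeries.C (coh X).kap * H597.cst 1 M else 0) := by
      funext M
      exact vir_mk k M
    rw [sr_eq, h2, tS_add, tS_add, tS_smul, tS_add, tS_add, quad_zero E hF h1, quad_one E hF h1]
    congr 1
    by_cases hk : k = 0
    · simp only [hk, if_true]
      rw [tS_smul, tS_cst, cb_smul, mul_one]
    · simp only [hk, if_false]
      exact tS_zero E
  rw [hC, ← hA, hB, smul_add, ← cb_smul, ← two_smul ℂ (Qp E F k), smul_smul]
  norm_num
  rw [add_assoc]

end Vale.Agent.P269.G1.H980
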